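import Mathlib
import Vale.Agent.Results.P201.A_fourterm
import Vale.Agent.Lib.P201.Quasi

universe u v w

namespace Vale.Agent.Results.P201.AA_union

open Vale.Agent.Lib.P201

/-- Statement (1): the statement of the hand-in `A_fourterm`. -/
def TreePart : Prop :=
  (∀ (K : Type w) [Field K] (G : Type u) [Group G] (n : ℕ),
      (n ≤ 3 ∨ (n ≤ 4 ∧ ∀ g : G, g ≠ 1 → ¬ IsOfFinOrder g)) →
      (∀ α β : MonoidAlgebra K G, β ≠ 0 → α * β = 0 → α.coeff.support.card ≤ n →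
        TreeRigid.{u, v} (diffSubgroup (α.coeff.support : Set G))) ∧
      (∀ (V : Type v) (T : SimpleGraph V), T.IsTree → ∀ [MulAction G V],
        (∀ (g : G) (x y : V), T.Adj x y → T.Adj (g • x) (g • y)) →
        (∀ (g : G) (x y : V), T.Adj x y → g • x = y → g • y ≠ x) →
        (∀ (x : V) (γ δ : MonoidAlgebra K (MulAction.stabilizer G x)),
          γ.coeff.support.card ≤ n → γ * δ = 0 → γ = 0 ∨ δ = 0) →
        ∀ α β : MonoidAlgebra K G, (α.coeff.support.card ≤ n ∨ β.coeff.support.card ≤ n) →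
          α * β = 0 → α = 0 ∨ β = 0)) ∧
    (∀ (K : Type w) [Field K] (G : Type u) [Group G] (α β : MonoidAlgebra K G),
      β ≠ 0 → α * β = 0 → α.coeff.support.card ≤ 3 →
      ∀ (X : Type v) [PseudoMetricSpace X] [Nonempty X] [MulAction G X] [IsIsometricSMul G X]
        (δ κ : ℝ),
        (∀ x y z w : X,
          dist x y + dist z w ≤ max (dist x z + dist y w) (dist x w + dist y z) + 2 * δ) →
        (∀ x y : X, ∃ m : X, dist x m ≤ dist x y / 2 + κ ∧ dist y m ≤ dist x y / 2 + κ) →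
        ∃ m : X, ∀ a ∈ α.coeff.support, ∀ b ∈ α.coeff.support,
          dist ((a⁻¹ * b) • m) m ≤ 4 * δ + 2 * κ)

/-- Statement (2): at most three terms, quasimorphisms of the subgroup of quotients. -/
def QuasiThree : Prop :=
  ∀ (K : Type w) [Field K] (G : Type u) [Group G] (α β : MonoidAlgebra K G),
    β ≠ 0 → α * β = 0 → α.coeff.support.card ≤ 3 →
    ∀ (φ : diffSubgroup (α.coeff.support : Set G) → ℝ) (Δ : ℝ),
      (∀ x y, |φ (x * y) - φ x - φ y| ≤ Δ) →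
      (∀ (x : diffSubgroup (α.coeff.support : Set G)) (n : ℕ), φ (x ^ n) = n * φ x) →
      ∀ a ∈ α.coeff.support, ∀ b ∈ α.coeff.support,
        ∀ hs : a⁻¹ * b ∈ diffSubgroup (α.coeff.support : Set G), |φ ⟨a⁻¹ * b, hs⟩| ≤ Δ

/-- Statement (3): any number of terms, the top of a quasimorphism on the support. -/
def QuasiTop : Prop :=
  ∀ (K : Type w) [Field K] (G : Type u) [Group G] (φ : G → ℝ) (Δ : ℝ),
    (∀ x y : G, |φ (x * y) - φ x - φ y| ≤ Δ) →
    ∀ (α β : MonoidAlgebra K G), β ≠ 0 → (α * β = 0 ∨ β * α = 0) →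
      (∀ a₀ ∈ α.coeff.support, (∀ a ∈ α.coeff.support, φ a ≤ φ a₀) →
        ∃ a₁ ∈ α.coeff.support, a₁ ≠ a₀ ∧ φ a₀ ≤ φ a₁ + 2 * Δ) ∧
      ((∀ x (n : ℕ), φ (x ^ n) = n * φ x) → (∀ g : G, g ≠ 1 → ¬ IsOfFinOrder g) →
        ∀ a₀ ∈ α.coeff.support, ∀ a₁ ∈ α.coeff.support, a₀ ≠ a₁ →
          ¬ ∀ a ∈ α.coeff.support, a ≠ a₀ → a ≠ a₁ →
            φ a + 3 * Δ < φ a₀ ∧ φ a + 3 * Δ < φ a₁)

/-- Statement (4): a high power dominates any fixed element. -/
def DominantPower : Prop :=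
  ∀ (K : Type w) [Field K] (G : Type u) [Group G] (φ : G → ℝ) (Δ : ℝ),
    (∀ x y : G, |φ (x * y) - φ x - φ y| ≤ Δ) → (∀ x (n : ℕ), φ (x ^ n) = n * φ x) →
    ∀ (g : G), 0 < φ g → ∀ (γ : MonoidAlgebra K G) (c : K), c ≠ 0 →
      ∃ N₀ : ℕ, ∀ N : ℕ, N₀ ≤ N → ∀ β : MonoidAlgebra K G,
        ((MonoidAlgebra.single (g ^ N) c + γ) * β = 0 → β = 0) ∧
        (β * (MonoidAlgebra.single (g ^ N) c + γ) = 0 → β = 0)

theorem result :
    TreePart.{u, v, w} ∧ QuasiThree.{u, w} ∧ QuasiTop.{u, w} ∧ DominantPower.{u, w} := by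
  refine ⟨Vale.Agent.Results.P201.A_fourterm.result.{u, v, w}, ?_, ?_, ?_⟩
  · intro K _ G _ α β hβ h hcard φ Δ hq hh a ha b hb hs
    exact quasi_three hβ h hcard φ Δ hq hh ha hb hs
  · intro K _ G _ φ Δ hq α β hβ h
    constructor
    · intro a₀ ha₀ hmax
      rcases h with h | h
      · obtain ⟨a₁, ha₁, hne, hg⟩ := top_gap_left hq hβ h ha₀
        exact ⟨a₁, ha₁, hne, hg hmax⟩
      · obtain ⟨a₁, ha₁, hne, hg⟩ := top_gap_right hq hβ h ha₀
        exact ⟨a₁, ha₁, hne, hg hmax⟩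
    · intro hh ht a₀ ha₀ a₁ ha₁ hne hgap
      rcases h with h | h
      · exact top_two_left ht hq hh hβ h ha₀ ha₁ hne hgap
      · exact top_two_right ht hq hh hβ h ha₀ ha₁ hne hgap
  · intro K _ G _ φ Δ hq hh g hg γ c hc
    exact dominant_power hq hh hg γ hc

end Vale.Agent.Results.P201.AA_union
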