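import Mathlib
import Vale.Agent.Results.P201.AA_union
import Vale.Agent.Lib.P201.Quasi5

universe u v w

namespace Vale.Agent.Results.P201.AAA_union

open Vale.Agent.Lib.P201

/-- Statement (5): torsion-free groups. A cut of the values of a homogeneous quasimorphism on the
support of a left zero divisor, with gap larger than three times the defect, has at least three
points above it as soon as it has one; at most five terms: a bound on the subgroup of quotients. -/
def QuasiFive : Prop :=
  ∀ (K : Type w) [Field K] (G : Type u) [Group G], (∀ g : G, g ≠ 1 → ¬ IsOfFinOrder g) →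
    ∀ α β : MonoidAlgebra K G, β ≠ 0 → α * β = 0 →
      (∀ (φ : G → ℝ) (Δ : ℝ), (∀ x y : G, |φ (x * y) - φ x - φ y| ≤ Δ) →
        (∀ x (n : ℕ), φ (x ^ n) = n * φ x) →
        ∀ t s : ℝ, 3 * Δ < s → (∀ a ∈ α.coeff.support, φ a ≤ t ∨ t + s ≤ φ a) →
          ∀ b ∈ α.coeff.support, t + s ≤ φ b →
            3 ≤ (α.coeff.support.filter (fun a => t + s ≤ φ a)).card) ∧
      (α.coeff.support.card ≤ 5 →
        ∀ (φ : diffSubgroup (α.coeff.support : Set G) → ℝ) (Δ : ℝ),
          (∀ x y, |φ (x * y) - φ x - φ y| ≤ Δ) →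
          (∀ (x : diffSubgroup (α.coeff.support : Set G)) (n : ℕ), φ (x ^ n) = n * φ x) →
          ∀ a ∈ α.coeff.support, ∀ b ∈ α.coeff.support,
            ∀ hs : a⁻¹ * b ∈ diffSubgroup (α.coeff.support : Set G),
              |φ ⟨a⁻¹ * b, hs⟩| ≤ 12 * Δ)

theorem result :
    AA_union.TreePart.{u, v, w} ∧ AA_union.QuasiThree.{u, w} ∧ AA_union.QuasiTop.{u, w} ∧
      AA_union.DominantPower.{u, w} ∧ QuasiFive.{u, w} := by
  obtain ⟨h1, h2, h3, h4⟩ := Vale.Agent.Results.P201.AA_union.result.{u, v, w}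
  refine ⟨h1, h2, h3, h4, ?_⟩
  intro K _ G _ ht α β hβ h
  constructor
  · intro φ Δ hq hh t s hs hsplit b hb htop
    exact upper_part_three ht hq hh hβ h hs hsplit hb htop
  · intro hcard φ Δ hq hh a ha b hb hs
    exact quasi_five ht hβ h hcard φ Δ hq hh ha hb hs

end Vale.Agent.Results.P201.AAA_union
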