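import Mathlib
import Vale.Agent.Lib.P201.Final3

universe u v w

namespace Vale.Agent.Results.P201.A_threeterm

open Vale.Agent.Lib.P201

theorem result :
    (∀ (K : Type w) [Field K] (G : Type u) [Group G] (α β : MonoidAlgebra K G),
      β ≠ 0 → α * β = 0 → α.coeff.support.card ≤ 3 →
      TreeRigid.{u, v} (diffSubgroup (α.coeff.support : Set G))) ∧
    (∀ (K : Type w) [Field K] (G : Type u) [Group G] (V : Type v) (T : SimpleGraph V),
      T.IsTree → ∀ [MulAction G V],
      (∀ (g : G) (x y : V), T.Adj x y → T.Adj (g • x) (g • y)) →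
      (∀ (g : G) (x y : V), T.Adj x y → g • x = y → g • y ≠ x) →
      (∀ (x : V) (γ δ : MonoidAlgebra K (MulAction.stabilizer G x)),
        γ.coeff.support.card ≤ 3 → γ * δ = 0 → γ = 0 ∨ δ = 0) →
      ∀ α β : MonoidAlgebra K G, (α.coeff.support.card ≤ 3 ∨ β.coeff.support.card ≤ 3) →
        α * β = 0 → α = 0 ∨ β = 0) ∧
    (∀ (K : Type w) [Field K] (G : Type u) [Group G] (α β : MonoidAlgebra K G),
      β ≠ 0 → α * β = 0 → α.coeff.support.card ≤ 3 →
      ∀ (X : Type v) [PseudoMetricSpace X] [Nonempty X] [MulAction G X] [IsIsometricSMul G X]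
        (δ κ : ℝ),
        (∀ x y z w : X,
          dist x y + dist z w ≤ max (dist x z + dist y w) (dist x w + dist y z) + 2 * δ) →
        (∀ x y : X, ∃ m : X, dist x m ≤ dist x y / 2 + κ ∧ dist y m ≤ dist x y / 2 + κ) →
        ∃ m : X, ∀ a ∈ α.coeff.support, ∀ b ∈ α.coeff.support,
          dist ((a⁻¹ * b) • m) m ≤ 4 * δ + 2 * κ) :=
  main_three

end Vale.Agent.Results.P201.A_threeterm
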